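import Vale.Agent.Lib.Helper5.P015EffectiveQ

/-!
Paths of Gaussian primes in a strip around a line of rational direction: an explicit bound.

A Gaussian integer `z` is identified with the point `(z.re, z.im)` of the plane; the Gaussian
primes are the irreducible elements of `GaussianInt`.

Let `u, v` be integers, not both zero.  The line `v x - u y = c` has direction `(u, v)`; let it
be at distance at most `C` from the origin (`c ^ 2 ≤ C ^ 2 (u ^ 2 + v ^ 2)`), and let `K` be a
natural number with `(|D| + 1) ^ 2 + (|W| + C) ^ 2 ≤ K`.  Let `z 0, z 1, ...` be Gaussian primes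
(not necessarily distinct, so that finite paths are included by repeating the last point) with
successive distances at most `D`, all within distance `|W|` of the line.  Then the coordinate
`u x + v y` of every `z n` is within `2 ^ (3 K + 2) (u ^ 2 + v ^ 2)` of that of `z 0`: the path
moves by at most `2 ^ (3 K + 2) sqrt (u ^ 2 + v ^ 2)` along the line.
-/

namespace Vale.Agent.Results.P015.EffectiveRationalStrips

open Vale.Agent.Lib.Helper5.P015EffectiveQ

theorem result :
    ∀ (u v : ℤ), (u ≠ 0 ∨ v ≠ 0) → ∀ (c C D W : ℝ) (K : ℕ), 0 ≤ C →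
      c ^ 2 ≤ C ^ 2 * ((u : ℝ) ^ 2 + (v : ℝ) ^ 2) →
      (|D| + 1) ^ 2 + (|W| + C) ^ 2 ≤ (K : ℝ) →
      ∀ z : ℕ → GaussianInt, (∀ n, Irreducible (z n)) →
      (∀ n, (((z (n + 1)).re : ℝ) - (z n).re) ^ 2
        + (((z (n + 1)).im : ℝ) - (z n).im) ^ 2 ≤ D ^ 2) →
      (∀ n, ((v : ℝ) * (z n).re - (u : ℝ) * (z n).im - c) ^ 2
        ≤ W ^ 2 * ((u : ℝ) ^ 2 + (v : ℝ) ^ 2)) →
      ∀ n, |u * ((z n).re - (z 0).re) + v * ((z n).im - (z 0).im)|
        ≤ 2 ^ (3 * K + 2) * (u ^ 2 + v ^ 2) := by
  intro u v huv c C D W K hC hc hKD z hirr hstep hstrip n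
  exact rational_strip_bound u v huv c C D W K hC hc hKD z hirr hstep hstrip n

end Vale.Agent.Results.P015.EffectiveRationalStrips
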