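import Vale.Agent.Lib.Helper5.P015Discs
import Vale.Agent.Lib.Helper5.P015Union

/-!
Gaussian primes near finitely many straight lines.

A Gaussian integer `z` is identified with the point `(z.re, z.im)` of the plane; the Gaussian
primes are the irreducible elements of `GaussianInt`.

(1) For every straight line `a x + b y = c` there is a constant `C` such that for every `R` the
line contains a point `(x, y)` with `x ^ 2 + y ^ 2 ≤ C exp (34 (|R| + 2) ^ 2)` such that no
Gaussian prime lies within distance `R` of `(x, y)`.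

(2) Let `z 0, z 1, ...` be an infinite sequence of distinct Gaussian primes whose successive
distances are at most `D`, and let `a i x + b i y = c i`, `i < m`, be finitely many straight
lines.  Then for every `W` and every `N` there is `n ≥ N` such that `z n` is at distance more
than `W` from each of the `m` lines: the sequence cannot stay within bounded distance of a
finite union of straight lines.
-/

namespace Vale.Agent.Results.P015.FiniteUnionsOfLines

open Vale.Agent.Lib.Helper5.P015Discs Vale.Agent.Lib.Helper5.P015Union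

theorem result :
    (∀ a b c : ℝ, (a ≠ 0 ∨ b ≠ 0) → ∃ C : ℝ, ∀ R : ℝ, ∃ x y : ℝ, a * x + b * y = c ∧
      x ^ 2 + y ^ 2 ≤ C * Real.exp (34 * (|R| + 2) ^ 2) ∧
      ∀ z : GaussianInt, Irreducible z →
        R ^ 2 < ((z.re : ℝ) - x) ^ 2 + ((z.im : ℝ) - y) ^ 2) ∧
    (∀ (m : ℕ) (a b c : Fin m → ℝ), (∀ i, a i ≠ 0 ∨ b i ≠ 0) → ∀ D W : ℝ,
      ∀ z : ℕ → GaussianInt, Function.Injective z → (∀ n, Irreducible (z n)) →
      (∀ n, (((z (n + 1)).re : ℝ) - (z n).re) ^ 2
        + (((z (n + 1)).im : ℝ) - (z n).im) ^ 2 ≤ D ^ 2) →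
      ∀ N : ℕ, ∃ n, N ≤ n ∧ ∀ i, W ^ 2 * ((a i) ^ 2 + (b i) ^ 2)
        < (a i * (z n).re + b i * (z n).im - c i) ^ 2) := by
  constructor
  · intro a b c hab
    exact exists_disc_quant a b c hab
  · intro m a b c hab D W z hinj hirr hstep N
    obtain ⟨n, hn, h⟩ := leaves_union a b c D hab Finset.univ W z hinj hirr hstep N
    exact ⟨n, hn, fun i => h i (Finset.mem_univ i)⟩

end Vale.Agent.Results.P015.FiniteUnionsOfLines
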