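import Vale.Agent.Results.P015.CurvesAndGrowingSteps
import Vale.Agent.Results.P015.EffectiveRationalStrips
import Vale.Agent.Results.P015.FiniteUnionsOfLines

/-!
Paths of Gaussian primes near straight lines, finite unions of lines and polynomial curves:
one statement collecting the results of the hand-ins `CurvesAndGrowingSteps`,
`EffectiveRationalStrips` and `FiniteUnionsOfLines` (the three conjuncts below are their
statements, in this order).

A Gaussian integer `z` is identified with the point `(z.re, z.im)` of the plane; the Gaussian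
primes are the irreducible elements of `GaussianInt`.

First conjunct: (a) a sequence of distinct Gaussian primes whose squared steps are at most
`D ^ 2 + (1 / 32) log (1 + |z n| ^ 2)` leaves, again and again, the region of points at squared
distance at most `W ^ 2 + (1 / 32) log (1 + |z| ^ 2)` from any given straight line; (b) a sequence
of distinct Gaussian primes with steps at most `D` is, again and again, at distance more than `W`
from the curve `y = p x`, for every polynomial `p` with integer coefficients.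

Second conjunct: a sequence of Gaussian primes with steps at most `D` inside the strip of
half-width `|W|` around the line `v x - u y = c` (`u, v` integers) moves at most
`2 ^ (3 K + 2) * (u ^ 2 + v ^ 2)` in the coordinate `u x + v y`, if
`(|D| + 1) ^ 2 + (|W| + C) ^ 2 ≤ K` and the line is at distance at most `C` from the origin.

Third conjunct: (a) every straight line carries discs of every radius `R` without Gaussian
primes, centred at squared distance at most `C * exp (34 (|R| + 2) ^ 2)` from the origin; (b) a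
sequence of distinct Gaussian primes with steps at most `D` is, again and again, at distance more
than `W` from all of finitely many given straight lines at once.
-/

namespace Vale.Agent.Results.P015.CollectedStripsAndCurves

theorem result :
    ((∀ a b c D W : ℝ, (a ≠ 0 ∨ b ≠ 0) → ∀ z : ℕ → GaussianInt, Function.Injective z →
      (∀ n, Irreducible (z n)) →
      (∀ n, (((z (n + 1)).re : ℝ) - (z n).re) ^ 2 + (((z (n + 1)).im : ℝ) - (z n).im) ^ 2
        ≤ D ^ 2 + (1 / 32) * Real.log (1 + (((z n).re : ℝ) ^ 2 + ((z n).im : ℝ) ^ 2))) →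
      ∀ N : ℕ, ∃ n, N ≤ n ∧ (a ^ 2 + b ^ 2) * (W ^ 2
          + (1 / 32) * Real.log (1 + (((z n).re : ℝ) ^ 2 + ((z n).im : ℝ) ^ 2)))
        < (a * (z n).re + b * (z n).im - c) ^ 2) ∧
    (∀ (p : Polynomial ℤ) (D W : ℝ) (z : ℕ → GaussianInt), Function.Injective z →
      (∀ n, Irreducible (z n)) →
      (∀ n, (((z (n + 1)).re : ℝ) - (z n).re) ^ 2 + (((z (n + 1)).im : ℝ) - (z n).im) ^ 2
        ≤ D ^ 2) →
      ∀ N : ℕ, ∃ n, N ≤ n ∧ ∀ t : ℝ,
        W ^ 2 < (((z n).re : ℝ) - t) ^ 2 + (((z n).im : ℝ) - Polynomial.aeval t p) ^ 2)) ∧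
    (∀ (u v : ℤ), (u ≠ 0 ∨ v ≠ 0) → ∀ (c C D W : ℝ) (K : ℕ), 0 ≤ C →
      c ^ 2 ≤ C ^ 2 * ((u : ℝ) ^ 2 + (v : ℝ) ^ 2) →
      (|D| + 1) ^ 2 + (|W| + C) ^ 2 ≤ (K : ℝ) →
      ∀ z : ℕ → GaussianInt, (∀ n, Irreducible (z n)) →
      (∀ n, (((z (n + 1)).re : ℝ) - (z n).re) ^ 2
        + (((z (n + 1)).im : ℝ) - (z n).im) ^ 2 ≤ D ^ 2) →
      (∀ n, ((v : ℝ) * (z n).re - (u : ℝ) * (z n).im - c) ^ 2
        ≤ W ^ 2 * ((u : ℝ) ^ 2 + (v : ℝ) ^ 2)) →
      ∀ n, |u * ((z n).re - (z 0).re) + v * ((z n).im - (z 0).im)|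
        ≤ 2 ^ (3 * K + 2) * (u ^ 2 + v ^ 2)) ∧
    ((∀ a b c : ℝ, (a ≠ 0 ∨ b ≠ 0) → ∃ C : ℝ, ∀ R : ℝ, ∃ x y : ℝ, a * x + b * y = c ∧
      x ^ 2 + y ^ 2 ≤ C * Real.exp (34 * (|R| + 2) ^ 2) ∧
      ∀ z : GaussianInt, Irreducible z →
        R ^ 2 < ((z.re : ℝ) - x) ^ 2 + ((z.im : ℝ) - y) ^ 2) ∧
    (∀ (m : ℕ) (a b c : Fin m → ℝ), (∀ i, a i ≠ 0 ∨ b i ≠ 0) → ∀ D W : ℝ,
      ∀ z : ℕ → GaussianInt, Function.Injective z → (∀ n, Irreducible (z n)) →
      (∀ n, (((z (n + 1)).re : ℝ) - (z n).re) ^ 2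
        + (((z (n + 1)).im : ℝ) - (z n).im) ^ 2 ≤ D ^ 2) →
      ∀ N : ℕ, ∃ n, N ≤ n ∧ ∀ i, W ^ 2 * ((a i) ^ 2 + (b i) ^ 2)
        < (a i * (z n).re + b i * (z n).im - c i) ^ 2)) :=
  ⟨Vale.Agent.Results.P015.CurvesAndGrowingSteps.result,
    Vale.Agent.Results.P015.EffectiveRationalStrips.result,
    Vale.Agent.Results.P015.FiniteUnionsOfLines.result⟩

end Vale.Agent.Results.P015.CollectedStripsAndCurves
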