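import Vale.Agent.Lib.Helper5.P015GrowMoat
import Vale.Agent.Lib.Helper5.P015CurveFull

/-!
Paths of Gaussian primes leave the neighbourhoods of straight lines and of polynomial curves.

A Gaussian integer `z` is identified with the point `(z.re, z.im)` of the plane; the Gaussian
primes are the irreducible elements of `GaussianInt`.  Let `z 0, z 1, ...` be an infinite
sequence of distinct Gaussian primes.

1. (Lines, slowly growing steps.)  If the steps satisfy
   `|z (n + 1) - z n| ^ 2 ≤ D ^ 2 + (1 / 32) log (1 + |z n| ^ 2)`, then for every straight line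
   `a x + b y = c`, every `W` and every `N` there is an index `n ≥ N` at which the squared
   distance from `z n` to the line, `(a x + b y - c) ^ 2 / (a ^ 2 + b ^ 2)`, exceeds
   `W ^ 2 + (1 / 32) log (1 + |z n| ^ 2)`.

2. (Polynomial curves, bounded steps.)  If the steps satisfy `|z (n + 1) - z n| ≤ D`, then for
   every polynomial `p` with integer coefficients, every `W` and every `N` there is an index
   `n ≥ N` such that `z n` is at distance more than `W` from every point `(t, p t)`, `t` real,
   of the curve `y = p x`.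
-/

namespace Vale.Agent.Results.P015.CurvesAndGrowingSteps

open Vale.Agent.Lib.Helper5.P015GrowMoat Vale.Agent.Lib.Helper5.P015CurveFull

theorem result :
    (∀ a b c D W : ℝ, (a ≠ 0 ∨ b ≠ 0) → ∀ z : ℕ → GaussianInt, Function.Injective z →
      (∀ n, Irreducible (z n)) →
      (∀ n, (((z (n + 1)).re : ℝ) - (z n).re) ^ 2 + (((z (n + 1)).im : ℝ) - (z n).im) ^ 2
        ≤ D ^ 2 + (1 / 32) * Real.log (1 + (((z n).re : ℝ) ^ 2 + ((z n).im : ℝ) ^ 2))) →
      ∀ N : ℕ, ∃ n, N ≤ n ∧ (a ^ 2 + b ^ 2) * (W ^ 2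
          + (1 / 32) * Real.log (1 + (((z n).re : ℝ) ^ 2 + ((z n).im : ℝ) ^ 2)))
        < (a * (z n).re + b * (z n).im - c) ^ 2) ∧
    (∀ (p : Polynomial ℤ) (D W : ℝ) (z : ℕ → GaussianInt), Function.Injective z →
      (∀ n, Irreducible (z n)) →
      (∀ n, (((z (n + 1)).re : ℝ) - (z n).re) ^ 2 + (((z (n + 1)).im : ℝ) - (z n).im) ^ 2
        ≤ D ^ 2) →
      ∀ N : ℕ, ∃ n, N ≤ n ∧ ∀ t : ℝ,
        W ^ 2 < (((z n).re : ℝ) - t) ^ 2 + (((z n).im : ℝ) - Polynomial.aeval t p) ^ 2) := by
  refine ⟨?_, ?_⟩
  · intro a b c D W hab z hinj hirr hstep N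
    exact leaves_log_region_grow a b c D W hab z hinj hirr hstep N
  · intro p D W z hinj hirr hstep N
    exact leaves_graph_io p D W z hinj hirr hstep N

end Vale.Agent.Results.P015.CurvesAndGrowingSteps
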