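import Vale.Agent.Lib.Helper5.P015GrowMoat

/-!
Paths of Gaussian primes with slowly growing steps leave the logarithmically widening regions
around straight lines.

A Gaussian integer `z` is identified with the point `(z.re, z.im)` of the plane; the Gaussian
primes are the irreducible elements of `GaussianInt`.

Let `z 0, z 1, ...` be an infinite sequence of distinct Gaussian primes whose steps satisfy
`|z (n + 1) - z n| ^ 2 ≤ D ^ 2 + (1 / 32) log (1 + |z n| ^ 2)`; in particular the steps may be
bounded by `D`, as in the moat problem, but they may also grow like `√(log |z|) / 6`.  Then for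
every straight line `a x + b y = c`, every `W` and every `N` there is an index `n ≥ N` at which
the squared distance from `z n` to the line, `(a x + b y - c) ^ 2 / (a ^ 2 + b ^ 2)`, exceeds
`W ^ 2 + (1 / 32) log (1 + |z n| ^ 2)`.
-/

namespace Vale.Agent.Results.P015.GrowingSteps

open Vale.Agent.Lib.Helper5.P015GrowMoat

theorem result :
    ∀ a b c D W : ℝ, (a ≠ 0 ∨ b ≠ 0) → ∀ z : ℕ → GaussianInt, Function.Injective z →
      (∀ n, Irreducible (z n)) →
      (∀ n, (((z (n + 1)).re : ℝ) - (z n).re) ^ 2 + (((z (n + 1)).im : ℝ) - (z n).im) ^ 2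
        ≤ D ^ 2 + (1 / 32) * Real.log (1 + (((z n).re : ℝ) ^ 2 + ((z n).im : ℝ) ^ 2))) →
      ∀ N : ℕ, ∃ n, N ≤ n ∧ (a ^ 2 + b ^ 2) * (W ^ 2
          + (1 / 32) * Real.log (1 + (((z n).re : ℝ) ^ 2 + ((z n).im : ℝ) ^ 2)))
        < (a * (z n).re + b * (z n).im - c) ^ 2 := by
  intro a b c D W hab z hinj hirr hstep N
  exact leaves_log_region_grow a b c D W hab z hinj hirr hstep N

end Vale.Agent.Results.P015.GrowingSteps
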