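import Vale.Agent.Lib.Helper5.P015Moat

/-!
Gaussian primes near straight lines.

A Gaussian integer `z` is identified with the point `(z.re, z.im)` of the plane; the Gaussian
primes are the irreducible elements of `GaussianInt`.

(1) On every straight line `a x + b y = c` and for every `R` there is a point `(x, y)` such that
no Gaussian prime lies within distance `R` of it.

(2) Let `z 0, z 1, ...` be an infinite sequence of distinct Gaussian primes whose successive
distances are at most `D`.  Then for every straight line `a x + b y = c` and every `W` some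
`z n` satisfies `|a x + b y - c| > W`: the sequence leaves every strip around every line.
-/

namespace Vale.Agent.Results.P015.StraightLineStrips

open Vale.Agent.Lib.Helper5.P015Moat

theorem result :
    (∀ a b c R : ℝ, (a ≠ 0 ∨ b ≠ 0) → ∃ x y : ℝ, a * x + b * y = c ∧
      ∀ z : GaussianInt, Irreducible z →
        R ^ 2 < ((z.re : ℝ) - x) ^ 2 + ((z.im : ℝ) - y) ^ 2) ∧
    (∀ a b c D W : ℝ, (a ≠ 0 ∨ b ≠ 0) → ∀ z : ℕ → GaussianInt, Function.Injective z →
      (∀ n, Irreducible (z n)) →
      (∀ n, (((z (n + 1)).re : ℝ) - (z n).re) ^ 2
        + (((z (n + 1)).im : ℝ) - (z n).im) ^ 2 ≤ D ^ 2) →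
      ∃ n, W < |a * (z n).re + b * (z n).im - c|) := by
  constructor
  · intro a b c R hab
    obtain ⟨x, y, h1, _, h2⟩ := exists_far_disk a b c R 0 1 hab (Or.inl rfl)
    exact ⟨x, y, h1, h2⟩
  · intro a b c D W hab z hinj hirr hstep
    exact leaves_strip a b c D W hab z hinj hirr hstep

end Vale.Agent.Results.P015.StraightLineStrips
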